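import Vale.Agent.P033.ProductDistance

/-!
P033: circulant Hadamard rows are far from product sign patterns.
-/

theorem Vale.Agent.Results.P033.FarFromProducts.result :
    ∀ (m r : ℕ) (h a b : ℕ → ℤ), 2 ≤ m → 2 ≤ r →
      (∀ j < m * r, h j = 1 ∨ h j = -1) → (∀ i < m, a i = 1 ∨ a i = -1) →
      (∀ k < r, b k = 1 ∨ b k = -1) →
      (∀ t, 0 < t → t < m * r →
        ∑ j ∈ Finset.range (m * r), h j * h ((j + t) % (m * r)) = 0) →
      (∀ s, 1 ≤ s → s < m → |∑ i ∈ Finset.range (m - s), a i * a (i + s)| * (r : ℤ) ≤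
        8 * (((Finset.range (m * r)).filter fun j => h j ≠ a (j % m) * b (j / m)).card : ℤ)) ∧
      r ≤ 8 * ((Finset.range (m * r)).filter fun j => h j ≠ a (j % m) * b (j / m)).card := by
  intro m r h a b hm hr hh ha hb hc
  have main := Vale.Agent.P033.product_distance m r h a b hm hr hh ha hb hc
  refine ⟨main, ?_⟩
  have h1 := main (m - 1) (by omega) (by omega)
  rw [show m - (m - 1) = 1 by omega, Finset.sum_range_one, Nat.zero_add, abs_mul] at h1
  rcases ha 0 (by omega) with e | e <;> rcases ha (m - 1) (by omega) with e' | e' <;>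
    rw [e, e'] at h1 <;> norm_num at h1 <;> exact_mod_cast h1
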